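import Vale.Agent.P273.H26.RootA
import Vale.Agent.P273.H604.ParHol

/-!
Row GP-ROOT on the natural set: the primitive at a root.
-/

open Complex Set Filter Topology MeasureTheory Metric
open scoped ContDiff

namespace Vale.Agent.P273.H26

open Vale.Agent.P273.H857 Vale.Agent.P273.H595

noncomputable section

/-- the regular factor of the integrand at the root `j` -/
def hr (k : ℕ) (j : Fin 6) (B : Finset (Fin 6)) (p : C6 × ℂ) : ℂ :=
  (p.1 j + p.2) ^ k / sqj j B p.1 (p.1 j + p.2)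

theorem sqj_insert (j : Fin 6) (B : Finset (Fin 6)) (b : C6) (z : ℂ) :
    sqj j (insert j B) b z = sqj j B b z := by
  unfold sqj
  refine Finset.prod_congr rfl fun l hl => ?_
  have h : l ≠ j := Finset.ne_of_mem_erase hl
  simp only [br, Finset.mem_insert, h, false_or]

theorem sq_root {j : Fin 6} {B : Finset (Fin 6)} (hj : j ∉ B) (b : C6) (w : ℂ) :
    sq B b (b j + w) = rt w * sqj j B b (b j + w) := by
  rw [sq_eq j, add_sub_cancel_left]
  simp only [br, hj, if_false]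

theorem sq_root_insert (j : Fin 6) (B : Finset (Fin 6)) (b : C6) (w : ℂ) :
    sq (insert j B) b (b j + w) = ru w * sqj j B b (b j + w) := by
  rw [sq_eq j, add_sub_cancel_left, sqj_insert]
  simp only [br, Finset.mem_insert_self, if_true]

theorem analyticAt_hr (k : ℕ) {j : Fin 6} {B : Finset (Fin 6)} {p : C6 × ℂ}
    (h : ∀ l, l ≠ j → p.1 j + p.2 - p.1 l ∈ Sb B l) : AnalyticAt ℂ (hr k j B) p := by
  have e0 : ∀ l, AnalyticAt ℂ (fun p : C6 × ℂ => p.1 l) p := fun l =>
    ((ContinuousLinearMap.proj l).comp (ContinuousLinearMap.fst ℂ C6 ℂ)).analyticAt _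
  have e1 : AnalyticAt ℂ (fun p : C6 × ℂ => p.1 j + p.2) p := (e0 j).add analyticAt_snd
  unfold hr
  refine (e1.pow k).div ?_ ?_
  · unfold sqj
    refine Finset.analyticAt_fun_prod _ fun l hl => ?_
    exact (analyticAt_br (h l (Finset.ne_of_mem_erase hl))).comp_of_eq (e1.sub (e0 l)) rfl
  · unfold sqj
    rw [Finset.prod_ne_zero_iff]
    exact fun l hl => br_ne_zero (Sb_ne_zero (h l (Finset.ne_of_mem_erase hl)))

theorem Er_eq (k : ℕ) (j : Fin 6) (B : Finset (Fin 6)) (b : C6) (w : ℂ) :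
    Er k j B b w = ∫ r in (0 : ℝ)..1, 2 * hr k j B (b, w * (r : ℂ) ^ 2) := by
  unfold Er hr
  refine intervalIntegral.integral_congr fun r _ => ?_
  simp only
  rw [mul_div_assoc]

theorem norm_mul_sq_le {w : ℂ} {r : ℝ} (hr : r ∈ Icc (0 : ℝ) 1) : ‖w * (r : ℂ) ^ 2‖ ≤ ‖w‖ := by
  rw [norm_mul, norm_pow, Complex.norm_real, Real.norm_eq_abs, abs_of_nonneg hr.1]
  exact mul_le_of_le_one_right (norm_nonneg _) (pow_le_one₀ hr.1 hr.2)

/-- the factor at the root is analytic -/
theorem analyticAt_Er (k : ℕ) {j : Fin 6} {B : Finset (Fin 6)} {b₀ : C6} {ε : ℝ} (hε : 0 < ε)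
    (h : ∀ p ∈ ball ((b₀, 0) : C6 × ℂ) ε, ∀ l, l ≠ j → p.1 j + p.2 - p.1 l ∈ Sb B l) :
    AnalyticAt ℂ (fun p : C6 × ℂ => Er k j B p.1 p.2) (b₀, 0) := by
  have hd : DifferentiableOn ℂ (hr k j B) (ball ((b₀, 0) : C6 × ℂ) ε) := fun p hp =>
    (analyticAt_hr k (h p hp)).differentiableAt.differentiableWithinAt
  have hm : ∀ p ∈ ball ((b₀, 0) : C6 × ℂ) ε, ∀ r ∈ Icc (0 : ℝ) 1,
      (p.1, p.2 * (r : ℂ) ^ 2) ∈ ball ((b₀, 0) : C6 × ℂ) ε := by
    intro p hp r hr'
    rw [mem_ball, Prod.dist_eq, max_lt_iff] at hp ⊢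
    refine ⟨hp.1, ?_⟩
    have := hp.2
    simp only [dist_zero_right] at this ⊢
    exact (norm_mul_sq_le hr').trans_lt this
  have h1 := H604.analyticOnNhd_intervalIntegral (U := ball ((b₀, 0) : C6 × ℂ) ε) isOpen_ball
    zero_le_one (f := fun (p : C6 × ℂ) (r : ℝ) => 2 * hr k j B (p.1, p.2 * (r : ℂ) ^ 2))
    (by
      refine continuousOn_const.mul (hd.continuousOn.comp (t := ball ((b₀, 0) : C6 × ℂ) ε)
        (f := fun q : (C6 × ℂ) × ℝ => (q.1.1, q.1.2 * (q.2 : ℂ) ^ 2)) ?_ ?_)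
      · exact Continuous.continuousOn (by fun_prop)
      · rintro ⟨p, r⟩ ⟨hp, hr'⟩
        exact hm p hp r hr')
    (by
      intro r hr'
      refine (differentiableOn_const _).mul (hd.comp (t := ball ((b₀, 0) : C6 × ℂ) ε)
        (f := fun q : C6 × ℂ => (q.1, q.2 * (r : ℂ) ^ 2)) ?_ ?_)
      · exact Differentiable.differentiableOn (by fun_prop)
      · exact fun p hp => hm p hp r hr')
  have h2 := h1 _ (mem_ball_self hε)
  simpa only [← Er_eq] using h2

/-- the primitive in the variable `v`, `v ^ 2 = w` -/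
theorem exists_prim (k : ℕ) {j : Fin 6} {B : Finset (Fin 6)} {b : C6} {ε : ℝ} (hε : 0 < ε)
    (h : ∀ w ∈ ball (0 : ℂ) ε, ∀ l, l ≠ j → b j + w - b l ∈ Sb B l) :
    ∃ G : ℂ → ℂ, (∀ v ∈ ball (0 : ℂ) (Real.sqrt ε), HasDerivAt G (2 * hr k j B (b, v ^ 2)) v) ∧
      ∀ v ∈ ball (0 : ℂ) (Real.sqrt ε), G v - G 0 = v * Er k j B b (v ^ 2) := by
  have hs0 : 0 < Real.sqrt ε := Real.sqrt_pos.2 hε
  have hsq : ∀ v ∈ ball (0 : ℂ) (Real.sqrt ε), v ^ 2 ∈ ball (0 : ℂ) ε := by
    intro v hv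
    rw [mem_ball_zero_iff] at hv ⊢
    rw [norm_pow]
    calc ‖v‖ ^ 2 < Real.sqrt ε ^ 2 := by gcongr
      _ = ε := Real.sq_sqrt hε.le
  have hd1 : ∀ w ∈ ball (0 : ℂ) ε, DifferentiableAt ℂ (fun w => hr k j B (b, w)) w := fun w hw =>
    (analyticAt_hr k (p := (b, w)) (h w hw)).differentiableAt.comp w
      (DifferentiableAt.prodMk (differentiableAt_const _) differentiableAt_id)
  have hd : DifferentiableOn ℂ (fun v : ℂ => 2 * hr k j B (b, v ^ 2))
      (ball (0 : ℂ) (Real.sqrt ε)) := fun v hv =>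
    ((differentiableAt_const _).mul ((hd1 _ (hsq v hv)).comp v
      (f := fun v : ℂ => v ^ 2) (by fun_prop))).differentiableWithinAt
  obtain ⟨G, hG⟩ := hd.isExactOn_ball
  refine ⟨G, hG, fun v hv => ?_⟩
  have hr1 : ∀ r ∈ uIcc (0 : ℝ) 1, (r : ℂ) * v ∈ ball (0 : ℂ) (Real.sqrt ε) := by
    intro r hr'
    rw [uIcc_of_le zero_le_one] at hr'
    rw [mem_ball_zero_iff] at hv ⊢
    rw [norm_mul, Complex.norm_real, Real.norm_eq_abs, abs_of_nonneg hr'.1]
    exact (mul_le_of_le_one_left (norm_nonneg _) hr'.2).trans_lt hv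
  have hder : ∀ r ∈ uIcc (0 : ℝ) 1, HasDerivAt (fun r : ℝ => G ((r : ℂ) * v))
      (2 * hr k j B (b, ((r : ℂ) * v) ^ 2) * v) r := by
    intro r hr'
    have h1 : HasDerivAt (fun r : ℝ => (r : ℂ) * v) v r := by
      simpa using (Complex.ofRealCLM.hasDerivAt (x := r)).mul_const v
    exact (hG _ (hr1 r hr')).comp r h1
  have hint : IntervalIntegrable (fun r : ℝ => 2 * hr k j B (b, ((r : ℂ) * v) ^ 2) * v)
      volume 0 1 := by
    refine ContinuousOn.intervalIntegrable ?_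
    refine ContinuousOn.mul (hd.continuousOn.comp (f := fun r : ℝ => (r : ℂ) * v) ?_ hr1)
      continuousOn_const
    exact Continuous.continuousOn (by fun_prop)
  have h2 := intervalIntegral.integral_eq_sub_of_hasDerivAt hder hint
  simp only [Complex.ofReal_one, one_mul, Complex.ofReal_zero, zero_mul] at h2
  rw [← h2, Er_eq, ← intervalIntegral.integral_const_mul]
  refine intervalIntegral.integral_congr fun r _ => ?_
  have e : v ^ 2 * (r : ℂ) ^ 2 = ((r : ℂ) * v) ^ 2 := by ring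
  simp only [e]
  ring

/-- slit balls are connected -/
theorem isPreconnected_Sl (ρ : ℝ) (hρ : 0 < ρ) : IsPreconnected (Sl ∩ ball (0 : ℂ) ρ) := by
  have hmem : ((ρ / 2 : ℝ) : ℂ) * I ∈ Sl ∩ ball (0 : ℂ) ρ := by
    refine ⟨Or.inl ?_, ?_⟩
    · simp only [mul_im, ofReal_re, I_im, mul_one, ofReal_im, I_re, mul_zero, add_zero]
      positivity
    · rw [mem_ball_zero_iff, norm_mul, Complex.norm_real, Complex.norm_I, mul_one, Real.norm_eq_abs,
        abs_of_pos (by positivity)]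
      linarith
  have hs : StarConvex ℝ (((ρ / 2 : ℝ) : ℂ) * I) (Sl ∩ ball (0 : ℂ) ρ) := by
    refine StarConvex.inter ?_ ((convex_ball _ _).starConvex hmem.2)
    intro z hz a c ha hc hac
    rcases hz with h | h
    · left
      show 0 < (a • (((ρ / 2 : ℝ) : ℂ) * I) + c • z).im
      have : (a • (((ρ / 2 : ℝ) : ℂ) * I) + c • z).im = a * (ρ / 2) + c * z.im := by
        simp
      rw [this]
      rcases hc.eq_or_lt with h1 | h1
      · have : a = 1 := by linarith
        rw [← h1, this]; linarith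
      · have := mul_pos h1 h
        have := mul_nonneg ha (by linarith : (0 : ℝ) ≤ ρ / 2)
        linarith
    · rcases hc.eq_or_lt with h1 | h1
      · left
        show 0 < (a • (((ρ / 2 : ℝ) : ℂ) * I) + c • z).im
        have e : (a • (((ρ / 2 : ℝ) : ℂ) * I) + c • z).im = a * (ρ / 2) + c * z.im := by
          simp
        have : a = 1 := by linarith
        rw [e, ← h1, this]; linarith
      · right
        show (a • (((ρ / 2 : ℝ) : ℂ) * I) + c • z).re ≠ 0
        have e : (a • (((ρ / 2 : ℝ) : ℂ) * I) + c • z).re = c * z.re := by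
          simp
        rw [e]
        exact mul_ne_zero h1.ne' h
  exact (hs.isPathConnected hmem).isConnected.isPreconnected

theorem neg_mem_Sl {z : ℂ} : -z ∈ Sl ↔ z ∈ Su := by
  simp only [Sl, Su, mem_ofPred_eq, neg_im, neg_re, ne_eq, neg_eq_zero]
  constructor
  · rintro (h | h)
    · left; linarith
    · exact Or.inr h
  · rintro (h | h)
    · left; linarith
    · exact Or.inr h

theorem isPreconnected_Su (ρ : ℝ) (hρ : 0 < ρ) : IsPreconnected (Su ∩ ball (0 : ℂ) ρ) := by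
  have h := (isPreconnected_Sl ρ hρ).image (fun z : ℂ => -z) continuous_neg.continuousOn
  convert h using 1
  ext z
  simp only [mem_inter_iff, mem_ball_zero_iff, mem_image]
  constructor
  · rintro ⟨h1, h2⟩
    exact ⟨-z, ⟨neg_mem_Sl.2 h1, by rwa [norm_neg]⟩, neg_neg z⟩
  · rintro ⟨w, ⟨h1, h2⟩, rfl⟩
    refine ⟨?_, by rwa [norm_neg]⟩
    rw [← neg_mem_Sl, neg_neg]
    exact h1

/-- the abstract end: one square root `q` on one slit domain `S` -/
theorem root_abs {S : Set ℂ} (hS : IsOpen S) (hS0 : ∀ w ∈ S, w ≠ 0)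
    (hSr : ∀ w : ℂ, 0 < w.re → w ∈ S) {q : ℂ → ℂ} (hq : ∀ w ∈ S, HasDerivAt q (1 / (2 * q w)) w)
    (hqq : ∀ w, q w * q w = w) (hqn : ∀ w, ‖q w‖ = Real.sqrt ‖w‖) {ε : ℝ} (hε : 0 < ε)
    (hc : IsPreconnected (S ∩ ball (0 : ℂ) ε)) {H G : ℂ → ℂ} {E : ℂ → ℂ}
    (hG : ∀ v ∈ ball (0 : ℂ) (Real.sqrt ε), HasDerivAt G (2 * H (v ^ 2)) v)
    (hGE : ∀ v ∈ ball (0 : ℂ) (Real.sqrt ε), G v - G 0 = v * E (v ^ 2)) {f : ℂ → ℂ} {c f₀ : ℂ}
    (hf : ∀ w ∈ S ∩ ball (0 : ℂ) ε, HasDerivAt f (H w / q w) (c + w)) {w : ℕ → ℂ}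
    (hw : ∀ n, 0 < (w n).re) (hw0 : Tendsto w atTop (𝓝 0))
    (hl : Tendsto (fun n => f (c + w n)) atTop (𝓝 f₀)) :
    ∀ z ∈ S ∩ ball (0 : ℂ) ε, f (c + z) = f₀ + q z * E z := by
  have hqb : ∀ z ∈ ball (0 : ℂ) ε, q z ∈ ball (0 : ℂ) (Real.sqrt ε) := by
    intro z hz
    rw [mem_ball_zero_iff] at hz ⊢
    rw [hqn]
    exact Real.sqrt_lt_sqrt (norm_nonneg _) hz
  have hq2 : ∀ z, q z ^ 2 = z := fun z => by rw [_root_.sq]; exact hqq z
  have hD : ∀ z ∈ S ∩ ball (0 : ℂ) ε, HasDerivAt (fun z => f (c + z) - G (q z)) 0 z := by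
    intro z hz
    have h1 : HasDerivAt (fun z => f (c + z)) (H z / q z) z := (hf z hz).comp_const_add c z
    have h2 := (hG (q z) (hqb z hz.2)).comp z (hq z hz.1)
    have h3 := h1.sub h2
    have hq0 : q z ≠ 0 := by
      intro h
      have := hqq z
      rw [h, zero_mul] at this
      exact hS0 z hz.1 this.symm
    have e : H z / q z - 2 * H (q z ^ 2) * (1 / (2 * q z)) = 0 := by
      rw [hq2]; field_simp; ring
    rw [e] at h3
    exact h3
  have ho : IsOpen (S ∩ ball (0 : ℂ) ε) := hS.inter isOpen_ball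
  have hconst : ∀ z ∈ S ∩ ball (0 : ℂ) ε, ∀ z' ∈ S ∩ ball (0 : ℂ) ε,
      f (c + z) - G (q z) = f (c + z') - G (q z') := by
    intro z hz z' hz'
    exact ho.is_const_of_deriv_eq_zero hc
      (fun y hy => (hD y hy).differentiableAt.differentiableWithinAt)
      (fun y hy => (hD y hy).deriv) hz hz'
  have hG0 : ContinuousAt G 0 := (hG 0 (mem_ball_self (Real.sqrt_pos.2 hε))).continuousAt
  have hqw : Tendsto (fun n => q (w n)) atTop (𝓝 0) := by
    rw [tendsto_zero_iff_norm_tendsto_zero]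
    simp only [hqn]
    have h1 : Tendsto (fun n => ‖w n‖) atTop (𝓝 0) := tendsto_zero_iff_norm_tendsto_zero.1 hw0
    have h2 := (Real.continuous_sqrt.tendsto 0).comp h1
    rw [Real.sqrt_zero] at h2
    exact h2
  have hlim : Tendsto (fun n => f (c + w n) - G (q (w n))) atTop (𝓝 (f₀ - G 0)) :=
    hl.sub (hG0.tendsto.comp hqw)
  intro z hz
  have hev : ∀ᶠ n in atTop, f (c + w n) - G (q (w n)) = f (c + z) - G (q z) := by
    filter_upwards [hw0.eventually (ball_mem_nhds (0 : ℂ) hε)] with n hn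
    exact hconst _ ⟨hSr _ (hw n), hn⟩ z hz
  have h5 : f (c + z) - G (q z) = f₀ - G 0 :=
    tendsto_nhds_unique (tendsto_const_nhds.congr' (hev.mono fun n h => h.symm)) hlim
  have h6 := hGE (q z) (hqb z hz.2)
  rw [hq2] at h6
  linear_combination h5 + h6

/-- the primitive at the root itself does not see the side -/
theorem P_root_insert (hI : StmINVn) {k : ℕ} (hk : k ≤ 1) {B : Finset (Fin 6)} {b : C6}
    {j : Fin 6} (hj : j ∉ B) (hb : ∀ l, l ≠ j → b l ≠ b j) {g : ℝ → ℝ} (h : Adm B b (b j) g) :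
    Adm (insert j B) b (b j) g ∧ P k (insert j B) b (b j) = P k B b (b j) := by
  have h' : Adm (insert j B) b (b j) g := by
    refine ⟨h.1, fun l hl hr' => ?_⟩
    have hlj : l ≠ j := fun e => hl (by rw [e])
    have := h.2 l hl hr'
    refine ⟨fun h8 => this.1 ((Finset.mem_insert.1 h8).resolve_left hlj), fun h8 => this.2 ?_⟩
    exact fun h9 => h8 (Finset.mem_insert_of_mem h9)
  refine ⟨h', ?_⟩
  rw [P_eq hI hk (SR.of_root hb) h', P_eq hI hk (SR.of_root hb) h]
  unfold PG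
  congr 1
  refine setIntegral_congr_fun measurableSet_Ioi fun t ht => ?_
  have ht : (0 : ℝ) < t := ht
  have e : gam (b j) g t = b j + (t + g t * I) := rfl
  have e2 : sq (insert j B) b (gam (b j) g t) = sq B b (gam (b j) g t) := by
    rw [e, sq_root_insert, sq_root hj, rt_eq_ru]
    simpa using ht
  simp only [igd, e2]

/-- **row GP-ROOT, on the natural set** -/
theorem stmROOTn (hE : StmEX) (hI : StmINVn) (hH : StmHOLn) : StmROOTn := by
  intro k B b₀ j hk hb hO hj
  obtain ⟨ε, hε, hn⟩ := Metric.eventually_nhds_iff_ball.1 (ok_near hO hb hj)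
  refine ⟨analyticAt_Er k hε fun p hp => (hn p hp).2.2.1, ?_⟩
  filter_upwards [ball_mem_nhds ((b₀, 0) : C6 × ℂ) hε] with p hp
  obtain ⟨b, w⟩ := p
  have hb1 : dist b b₀ < ε := by
    rw [mem_ball, Prod.dist_eq, max_lt_iff] at hp; exact hp.1
  have hw1 : w ∈ ball (0 : ℂ) ε := by
    rw [mem_ball, Prod.dist_eq, max_lt_iff] at hp; exact hp.2
  have hmem : ∀ w ∈ ball (0 : ℂ) ε, (b, w) ∈ ball ((b₀, 0) : C6 × ℂ) ε := by
    intro w hw
    rw [mem_ball, Prod.dist_eq, max_lt_iff]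
    exact ⟨hb1, hw⟩
  have hN := fun w hw => hn (b, w) (hmem w hw)
  simp only at hN
  obtain ⟨G, hG, hGE⟩ := exists_prim k (j := j) (B := B) (b := b) hε fun w hw => (hN w hw).2.2.1
  have h0 := hN 0 (mem_ball_self hε)
  obtain ⟨g, hg⟩ := hE B b (b j) h0.2.2.2.1
  obtain ⟨hg', hPi⟩ := P_root_insert hI hk hj h0.1 hg
  -- the sequence
  set w' : ℕ → ℂ := fun n => ((1 / ((n : ℝ) + 1) : ℝ) : ℂ) + g (1 / ((n : ℝ) + 1)) * I with hw'
  have hgam : ∀ s : ℝ, gam (b j) g s = b j + ((s : ℂ) + g s * I) := fun s => rfl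
  have hcont : Continuous fun s : ℝ => (s : ℂ) + g s * I := by
    have := hg.1.smooth.continuous
    fun_prop
  have hw0 : Tendsto w' atTop (𝓝 0) := by
    have h1 := (hcont.tendsto 0).comp tendsto_one_div_add_atTop_nhds_zero_nat
    have e : ((0 : ℝ) : ℂ) + (g 0 : ℂ) * I = 0 := by rw [hg.1.zero]; simp
    rw [e] at h1
    exact h1
  have hwre : ∀ n, 0 < (w' n).re := fun n => by
    have : (w' n).re = 1 / ((n : ℝ) + 1) := by
      simp only [hw', add_re, mul_re, ofReal_re, I_re, mul_zero, ofReal_im, I_im, mul_one,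
        sub_zero, add_zero]
    rw [this]; positivity
  have hSR : ∀ᶠ s : ℝ in 𝓝[>] 0, SR b (gam (b j) g s) := by
    have h1 : Tendsto (fun s : ℝ => (s : ℂ) + g s * I) (𝓝[>] 0) (𝓝 0) := by
      have h2 := (hcont.tendsto 0).mono_left (nhdsWithin_le_nhds (s := Ioi (0 : ℝ)))
      have e : ((0 : ℝ) : ℂ) + (g 0 : ℂ) * I = 0 := by rw [hg.1.zero]; simp
      rwa [e] at h2
    filter_upwards [h1.eventually (ball_mem_nhds (0 : ℂ) hε), self_mem_nhdsWithin] with s hs hs0
    refine SR.of_ne fun l => ?_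
    rw [hgam]
    rcases eq_or_ne l j with h | h
    · rw [h]
      intro e
      have h3 : (s : ℂ) + g s * I = 0 := by
        have := e.symm
        rwa [add_eq_left] at this
      have h4 := congrArg Complex.re h3
      simp only [add_re, mul_re, ofReal_re, I_re, mul_zero, ofReal_im, I_im, mul_one, sub_zero,
        add_zero, zero_re] at h4
      exact absurd h4 (ne_of_gt hs0)
    · exact (hN _ hs).2.1 l h
  constructor
  · intro hw
    refine root_abs isOpen_Sl (fun z hz => ne_zero_of_mem hz) (fun z hz => Or.inr hz.ne')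
      (fun z hz => hasDerivAt_rt hz) rt_mul_self norm_rt hε (isPreconnected_Sl ε hε)
      (H := fun z => hr k j B (b, z)) hG hGE (f := P k B b) (fun z hz => ?_) hwre hw0
      (tendsto_P_gam hI hk (SR.of_root h0.1) hg hSR) w ⟨hw, hw1⟩
    have h2 := hN z hz.2
    have h3 : ∀ l, b l ≠ b j + z := by
      intro l
      rcases eq_or_ne l j with h | h
      · rw [h]
        intro e
        have := e.symm
        rw [add_eq_left] at this
        exact ne_zero_of_mem hz.1 this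
      · exact h2.2.1 l h
    have h4 := (hH k B b (b j + z) hk h3 (h2.2.2.2.2.1 hz.1)).2
    rw [sq_root hj] at h4
    convert h4 using 1
    simp only [hr]
    rw [div_div, mul_comm]
  · intro hw
    rw [← hPi]
    refine root_abs isOpen_Su (fun z hz => ne_zero_of_mem_Su hz) (fun z hz => Or.inr hz.ne')
      (fun z hz => hasDerivAt_ru hz) ru_mul_self norm_ru hε (isPreconnected_Su ε hε)
      (H := fun z => hr k j B (b, z)) hG hGE (f := P k (insert j B) b) (fun z hz => ?_) hwre hw0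
      (tendsto_P_gam hI hk (SR.of_root h0.1) hg' hSR) w ⟨hw, hw1⟩
    have h2 := hN z hz.2
    have h3 : ∀ l, b l ≠ b j + z := by
      intro l
      rcases eq_or_ne l j with h | h
      · rw [h]
        intro e
        have := e.symm
        rw [add_eq_left] at this
        exact ne_zero_of_mem_Su hz.1 this
      · exact h2.2.1 l h
    have h4 := (hH k (insert j B) b (b j + z) hk h3 (h2.2.2.2.2.2 hz.1)).2
    rw [sq_root_insert] at h4
    convert h4 using 1
    simp only [hr]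
    rw [div_div, mul_comm]

end

end Vale.Agent.P273.H26
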