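import Vale.Agent.P273.H26.CtrC
import Vale.Agent.P273.H97.VertTh

/-!
# P273, crew ASY0, (N2): the function which is cut off at a root

`|A ξ b (EWv b j x v)| ≤ K (|bt ξ k| + ‖ξ‖ / y k)` for `b = rootsL y α`, `k` the pair of the root `j`,
`x` in the disc `4 ‖x - b j‖ ^ 2 < hh b j`.
-/

noncomputable section

namespace Vale.Agent.P273.H26

open Complex Metric Set
open Vale.Agent.P273.H95 (ctr IsCl)
open Vale.Agent.P273.H562 (rootsL bt xe)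
open Vale.Agent.P273.H803 (BaseOk)
open Vale.Agent.P273.H630
open Vale.Agent.P273.H97
open Vale.Agent.P273.H828 (th)
open H214 H604

/-- the vertical part of the flat form at the theta configuration -/
def AId (A : (Fin 6 → ℝ) → Bs → (ℂ × ℂ →L[ℝ] ℝ)) : Prop := ∃ N₀ : ℝ, 1 ≤ N₀ ∧
  ∀ y α, BaseOk N₀ y α → ∀ ξ, IsCl ξ → ∀ u v : ℂ,
    A ξ (rootsL y α) (u, v) = (af0 (eps0 y α) (cc ξ y α) 0 * u +
      af0 (eps0 y α) (cc ξ y α) 1 * v).re

theorem rootsL_th (y α : Fin 3 → ℝ) : rootsL y α = th (H630.dL y α) := rfl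

theorem dL_ne_zero (y α : Fin 3 → ℝ) (k : Fin 3) : H630.dL y α k ≠ 0 := by
  unfold H630.dL
  refine mul_ne_zero (by norm_num) (Complex.exp_ne_zero _)

/-- distinct roots -/
theorem th_mem_Cf {d : Fin 3 → ℂ} (hd : ∀ k, ‖d k‖ ≤ 1 / 16) (h0 : ∀ k, d k ≠ 0) : th d ∈ Cf := by
  intro i j hij
  by_contra hne
  by_cases h : pk i = pk j
  · rcases pk_eq_iff.1 h with h1 | h1
    · exact hne h1
    · have h2 := norm_par_sub d j
      rw [← h1, hij, sub_self, norm_zero] at h2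
      have := norm_pos_iff.2 (h0 (pk j))
      linarith
  · have h1 := norm_ctr_sub h
    have h2 := norm_th_sub d i
    have h3 := norm_th_sub d j
    have h4 : ctr (pk i) - ctr (pk j) = (th d j - ctr (pk j)) - (th d i - ctr (pk i)) := by
      rw [hij]; ring
    have h5 := norm_sub_le (th d j - ctr (pk j)) (th d i - ctr (pk i))
    rw [← h4, h2, h3] at h5
    linarith [hd (pk i), hd (pk j)]

theorem rootsL_mem_Cf {y α : Fin 3 → ℝ} (hy : ∀ k, 0 ≤ y k) : rootsL y α ∈ Cf := by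
  rw [rootsL_th]
  exact th_mem_Cf (fun k => H630.norm_dL_le (hy k)) (dL_ne_zero y α)

/-- in the disc of the root `j` -/
theorem disc_near {d : Fin 3 → ℂ} (hb : th d ∈ Cf) {x : ℂ} {j : Fin 6}
    (h : 4 * ‖x - th d j‖ ^ 2 < hh (th d) j) : ‖x - th d j‖ ≤ ‖d (pk j)‖ := by
  have h1 := hh_le hb (par_ne j)
  rw [norm_par_sub] at h1
  refine le_of_sq_le_sq ?_ (by positivity)
  nlinarith [sq_nonneg ‖x - th d j‖]

theorem disc_ctr {d : Fin 3 → ℂ} (hb : th d ∈ Cf) {x : ℂ} {j : Fin 6}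
    (h : 4 * ‖x - th d j‖ ^ 2 < hh (th d) j) : ‖x - ctr (pk j)‖ ≤ 2 * ‖d (pk j)‖ := by
  have h1 := disc_near hb h
  have h2 := norm_th_sub d j
  have h3 : ‖x - ctr (pk j)‖ ≤ ‖x - th d j‖ + ‖th d j - ctr (pk j)‖ := by
    have := norm_add_le (x - th d j) (th d j - ctr (pk j))
    rwa [sub_add_sub_cancel] at this
  linarith

theorem disc_ratio {d : Fin 3 → ℂ} (hd : ∀ k, ‖d k‖ ≤ 1 / 16) (hb : th d ∈ Cf) {x y : ℂ}
    (hy : y ^ 2 = ff (th d, x)) (hy0 : y ≠ 0) {j : Fin 6}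
    (h : 4 * ‖x - th d j‖ ^ 2 < hh (th d) j) : ‖x - th d j‖ / ‖y‖ ≤ 256 := by
  have h1 := disc_near hb h
  have h2 := disc_ctr hb h
  have h3 := hd (pk j)
  have h4 : ‖x - ctr (pk j)‖ ≤ 1 / 4 := by linarith
  have h5 := le_norm_y hd (nearest_of_le h4) hy (norm_nonneg (x - th d j)) fun i hi => by
    rcases pk_eq_iff.1 hi with rfl | rfl
    · exact le_rfl
    · have h6 := norm_par_sub d j
      have h7 : ‖th d (par j) - th d j‖ ≤ ‖x - th d j‖ + ‖x - th d (par j)‖ := by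
        have := norm_sub_le (x - th d j) (x - th d (par j))
        rwa [sub_sub_sub_cancel_left] at this
      linarith [norm_nonneg (x - th d j)]
  rw [div_le_iff₀ (norm_pos_iff.2 hy0)]
  have h8 : (1 / 16 : ℝ) ^ 2 ≤ ((1 + ‖x‖) / 16) ^ 2 := by
    have := norm_nonneg x
    gcongr
    linarith
  nlinarith [mul_le_mul_of_nonneg_left h8 (norm_nonneg (x - th d j))]

/-- **the function at a root, parametric form** -/
theorem abs_EWv_le {d : Fin 3 → ℂ} (hd : ∀ k, ‖d k‖ ≤ 1 / 16) (hb : th d ∈ Cf)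
    {A : ℂ × ℂ →L[ℝ] ℝ} {a : ℂ × ℂ} (hA : ∀ u v, A (u, v) = (a.1 * u + a.2 * v).re) {x y : ℂ}
    (hy : y ^ 2 = ff (th d, x)) {j : Fin 6} (h : 4 * ‖x - th d j‖ ^ 2 < hh (th d) j) :
    |A (EWv (th d) j x y)| ≤
      256 * (32 * (‖a.1 + a.2 * ctr (pk j)‖ + 2 * ‖a.2‖ * ‖d (pk j)‖)) := by
  have n2 := norm_nonneg a.2
  have nd := norm_nonneg (d (pk j))
  rcases eq_or_ne y 0 with hy0 | hy0
  · have h0 : EWv (th d) j x y = 0 := by
      unfold EWv EWc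
      rw [hy0, div_zero, zero_mul, zero_mul]
      rfl
    rw [h0, map_zero, abs_zero]
    positivity
  have hD : (th d, x) ∈ Dj j := mem_Dj_of_hh hb h
  have hM : ∀ r ∈ Icc (0 : ℝ) 1, ‖a.1 + a.2 * seg j (th d, x) r‖ ≤
      ‖a.1 + a.2 * ctr (pk j)‖ + 2 * ‖a.2‖ * ‖d (pk j)‖ := by
    intro r hr
    have h1 : ‖th d j - ctr (pk j)‖ ≤ 2 * ‖d (pk j)‖ := by
      rw [norm_th_sub]; linarith
    have h2 := norm_seg_le h1 (disc_ctr hb h) hr
    have e : a.1 + a.2 * seg j (th d, x) r =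
      (a.1 + a.2 * ctr (pk j)) + a.2 * (seg j (th d, x) r - ctr (pk j)) := by ring
    rw [e]
    calc _ ≤ ‖a.1 + a.2 * ctr (pk j)‖ + ‖a.2‖ * ‖seg j (th d, x) r - ctr (pk j)‖ := by
          refine (norm_add_le _ _).trans ?_; rw [norm_mul]
      _ ≤ ‖a.1 + a.2 * ctr (pk j)‖ + ‖a.2‖ * (2 * ‖d (pk j)‖) := by gcongr
      _ = _ := by ring
  rw [EWv, hA]
  refine (Complex.abs_re_le_norm _).trans ((norm_EWc_comb_le hD y a hM).trans ?_)
  exact mul_le_mul_of_nonneg_right (disc_ratio hd hb hy hy0 h) (by positivity)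

theorem norm_dL_le' {y α : Fin 3 → ℝ} {k : Fin 3} (h : 0 < y k) : ‖H630.dL y α k‖ ≤ 1 / y k := by
  unfold H630.dL
  rw [norm_mul, Complex.norm_exp]
  have h1 : ((-(y k : ℂ) + (α k : ℂ) * I) / 2).re = -(y k) / 2 := by simp
  rw [h1]
  have h2 : y k / 2 ≤ Real.exp (y k / 2) := by linarith [Real.add_one_le_exp (y k / 2)]
  have h3 : Real.exp (-(y k) / 2) ≤ 2 / y k := by
    rw [neg_div, Real.exp_neg, inv_le_comm₀ (Real.exp_pos _) (by positivity), inv_div]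
    exact h2
  have h4 : ‖(1 / 16 : ℂ)‖ = 1 / 16 := by simp
  rw [h4]
  have h5 : 0 < 1 / y k := one_div_pos.2 h
  have h6 : 2 / y k = 2 * (1 / y k) := by ring
  linarith

/-- **(N2)** -/
theorem ew_bound {A : (Fin 6 → ℝ) → Bs → (ℂ × ℂ →L[ℝ] ℝ)} (hA : AId A) :
    ∃ K N₀ : ℝ, 1 ≤ K ∧ 1 ≤ N₀ ∧ ∀ y α, BaseOk N₀ y α → ∀ ξ, IsCl ξ → ∀ (j : Fin 6) (x v : ℂ),
      4 * ‖x - rootsL y α j‖ ^ 2 < hh (rootsL y α) j → v ^ 2 = ff (rootsL y α, x) →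
        |A ξ (rootsL y α) (EWv (rootsL y α) j x v)| ≤ K * (|bt ξ (pk j)| + ‖ξ‖ / y (pk j)) ∧
        ((∀ k, bt ξ k = 0) →
          |A ξ (rootsL y α) (EWv (rootsL y α) j x v)| ≤ K * H562.ww ξ y) := by
  obtain ⟨N₁, hN1, hA⟩ := hA
  obtain ⟨K, N₂, hK1, hN2, hK⟩ := exists_aL
  refine ⟨256 * (32 * (10 * K)), max N₁ N₂, by linarith, hN1.trans (le_max_left _ _),
    fun y α hy ξ hξ j x v hx hv => ?_⟩
  have hy1 : BaseOk N₁ y α := ⟨fun k => (le_max_left _ _).trans (hy.1 k), hy.2⟩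
  have hy2 : BaseOk N₂ y α := ⟨fun k => (le_max_right _ _).trans (hy.1 k), hy.2⟩
  have hypos : ∀ k, 0 < y k := fun k => by
    have := (le_max_left N₁ N₂).trans (hy.1 k)
    linarith
  have hy1' : ∀ k, 1 ≤ y k := fun k => hN1.trans (hy1.1 k)
  have hd : ∀ k, ‖H630.dL y α k‖ ≤ 1 / 16 := fun k => H630.norm_dL_le (hypos k).le
  have hb : th (H630.dL y α) ∈ Cf := rootsL_mem_Cf fun k => (hypos k).le
  obtain ⟨c1, c2, c6⟩ := hK y α hy2 ξ hξ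
  set a : ℂ × ℂ := (aL ξ y α 0, aL ξ y α 1) with ha
  have hA' : ∀ u v, A ξ (th (H630.dL y α)) (u, v) = (a.1 * u + a.2 * v).re := hA y α hy1 ξ hξ
  have key : |A ξ (rootsL y α) (EWv (rootsL y α) j x v)| ≤
      256 * (32 * (‖a.1 + a.2 * ctr (pk j)‖ + 2 * ‖a.2‖ * ‖H630.dL y α (pk j)‖)) :=
    abs_EWv_le hd hb hA' hv hx
  have ha1 : ‖a.1‖ ≤ ‖aL ξ y α‖ := norm_le_pi_norm (aL ξ y α) 0
  have ha2 : ‖a.2‖ ≤ ‖aL ξ y α‖ := norm_le_pi_norm (aL ξ y α) 1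
  have hnξ := norm_nonneg ξ
  have hbt := abs_nonneg (bt ξ (pk j))
  constructor
  · have h1 : ‖a.1 + a.2 * ctr (pk j)‖ ≤ K * (|bt ξ (pk j)| + ‖ξ‖ / y (pk j)) := c2 (pk j)
    have h2 : ‖a.2‖ * ‖H630.dL y α (pk j)‖ ≤ K * ‖ξ‖ * (1 / y (pk j)) :=
      mul_le_mul (ha2.trans c1) (norm_dL_le' (hypos _)) (norm_nonneg _) (by positivity)
    have h3 : K * ‖ξ‖ * (1 / y (pk j)) = K * (‖ξ‖ / y (pk j)) := by ring
    have h4 : 0 ≤ ‖ξ‖ / y (pk j) := div_nonneg hnξ (hypos _).le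
    have h5 : 0 ≤ K * |bt ξ (pk j)| := by positivity
    have h6 : 0 ≤ K * (‖ξ‖ / y (pk j)) := by positivity
    rw [h3] at h2
    have h7 : 2 * ‖a.2‖ * ‖H630.dL y α (pk j)‖ = 2 * (‖a.2‖ * ‖H630.dL y α (pk j)‖) := by ring
    rw [h7] at key
    nlinarith
  · intro hbt0
    have h1 := c6 hbt0
    have h2 : ‖a.1 + a.2 * ctr (pk j)‖ ≤ ‖a.1‖ + ‖a.2‖ * (11 / 2) := by
      refine (norm_add_le _ _).trans ?_
      rw [norm_mul]
      have := H97.norm_ctr_le (pk j)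
      gcongr
    have h3 : ‖a.2‖ * ‖H630.dL y α (pk j)‖ ≤ ‖a.2‖ * (1 / 16) := by
      have := hd (pk j)
      gcongr
    have h7 : 2 * ‖a.2‖ * ‖H630.dL y α (pk j)‖ = 2 * (‖a.2‖ * ‖H630.dL y α (pk j)‖) := by ring
    rw [h7] at key
    have h8 := norm_nonneg a.2
    nlinarith

end Vale.Agent.P273.H26
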