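import Vale.Agent.P273.H26.Ei
import Vale.Agent.P273.H908.IdF

/-!
# P273, crew ASY0: `AId AX`, and the bounds of the functions which are cut off, for the flat family
-/

noncomputable section

namespace Vale.Agent.P273.H26

open Vale.Agent.P273.H95 (ctr IsCl)
open Vale.Agent.P273.H562 (rootsL bt xe)
open Vale.Agent.P273.H803 (BaseOk)
open Vale.Agent.P273.H580 (AX)
open Vale.Agent.P273.H97 (pk)
open H214 H604

/-- **the vertical part of the flat form at the theta configurations** -/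
theorem aId : AId AX := by
  obtain ⟨N₀, h1, h⟩ := H908.exists_theta
  exact ⟨N₀, h1, fun y α hy ξ hξ u v => ((h y α hy).2.2 ξ hξ).1 u v⟩

/-- **the functions at the roots** -/
theorem ew_theta : ∃ K N₀ : ℝ, 1 ≤ K ∧ 1 ≤ N₀ ∧ ∀ y α, BaseOk N₀ y α → ∀ ξ, IsCl ξ →
    ∀ (j : Fin 6) (x v : ℂ),
      4 * ‖x - rootsL y α j‖ ^ 2 < hh (rootsL y α) j → v ^ 2 = ff (rootsL y α, x) →
        |AX ξ (rootsL y α) (EWv (rootsL y α) j x v)| ≤ K * (|bt ξ (pk j)| + ‖ξ‖ / y (pk j)) ∧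
        ((∀ k, bt ξ k = 0) →
          |AX ξ (rootsL y α) (EWv (rootsL y α) j x v)| ≤ K * H562.ww ξ y) := ew_bound aId

/-- **the function at infinity** -/
theorem ei_theta : ∃ K N₀ : ℝ, 1 ≤ K ∧ 1 ≤ N₀ ∧ ∀ y α, BaseOk N₀ y α → ∀ ξ, IsCl ξ → ∀ x v : ℂ,
      Rr (rootsL y α) ≤ ‖x‖ → v ^ 2 = ff (rootsL y α, x) →
        |AX ξ (rootsL y α) (EIv (rootsL y α) x v)| ≤ K * ‖ξ‖ / ‖x‖ ∧
        ((∀ k, bt ξ k = 0) →
          |AX ξ (rootsL y α) (EIv (rootsL y α) x v)| ≤ K * H562.ww ξ y / ‖x‖) := ei_bound aId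

end Vale.Agent.P273.H26
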