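import Vale.Agent.P273.H26.Ew

/-!
# P273, crew ASY0: the function which is cut off at infinity

`|A ξ b (EIv b x v)| ≤ K ‖ξ‖ / ‖x‖` for `b = rootsL y α`, `Rr b ≤ ‖x‖`.
-/

noncomputable section

namespace Vale.Agent.P273.H26

open Complex Metric Set
open Vale.Agent.P273.H95 (ctr IsCl)
open Vale.Agent.P273.H562 (rootsL bt xe)
open Vale.Agent.P273.H803 (BaseOk)
open Vale.Agent.P273.H630
open H214 H604

/-- the function at infinity, parametric form -/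
theorem abs_EIv_le {b : Bs} {A : ℂ × ℂ →L[ℝ] ℝ} {a : ℂ × ℂ}
    (hA : ∀ u v, A (u, v) = (a.1 * u + a.2 * v).re) {x y : ℂ} (hy : y ^ 2 = ff (b, x))
    (h : Rr b ≤ ‖x‖) : |A (EIv b x y)| ≤ 8 * (‖a.1‖ + ‖a.2‖) / ‖x‖ := by
  have hR := eight_le_Rr b
  have h8 : 8 ≤ ‖x‖ := hR.trans h
  have hx0 : x ≠ 0 := by rintro rfl; rw [norm_zero] at h8; linarith
  have hD : (b, x⁻¹) ∈ DI := mem_DI_inv (two_mul_norm_lt h)
  rw [EIv, hA]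
  refine (Complex.abs_re_le_norm _).trans ((norm_add_le _ _).trans ?_)
  rw [norm_mul, norm_mul]
  have f0 := norm_EIc_le (k := 0) (by norm_num) hx0 hD (y := y) hy
  have f1 := norm_EIc_le (k := 1) le_rfl hx0 hD (y := y) hy
  have hxp : 0 < ‖x‖ := by linarith
  have g0 : (8 : ℝ) / ‖x‖ ^ (2 - 0) ≤ 8 / ‖x‖ := by
    simp only [Nat.sub_zero]
    refine div_le_div_of_nonneg_left (by norm_num) hxp ?_
    nlinarith
  have g1 : (8 : ℝ) / ‖x‖ ^ (2 - 1) = 8 / ‖x‖ := by norm_num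
  rw [g1] at f1
  have n0 := norm_nonneg a.1
  have n1 := norm_nonneg a.2
  calc ‖a.1‖ * ‖EIc 0 b x y‖ + ‖a.2‖ * ‖EIc 1 b x y‖ ≤ ‖a.1‖ * (8 / ‖x‖) + ‖a.2‖ * (8 / ‖x‖) := by
        gcongr
        exact f0.trans g0
    _ = 8 * (‖a.1‖ + ‖a.2‖) / ‖x‖ := by ring

/-- **the function at infinity** -/
theorem ei_bound {A : (Fin 6 → ℝ) → Bs → (ℂ × ℂ →L[ℝ] ℝ)} (hA : AId A) :
    ∃ K N₀ : ℝ, 1 ≤ K ∧ 1 ≤ N₀ ∧ ∀ y α, BaseOk N₀ y α → ∀ ξ, IsCl ξ → ∀ x v : ℂ,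
      Rr (rootsL y α) ≤ ‖x‖ → v ^ 2 = ff (rootsL y α, x) →
        |A ξ (rootsL y α) (EIv (rootsL y α) x v)| ≤ K * ‖ξ‖ / ‖x‖ ∧
        ((∀ k, bt ξ k = 0) →
          |A ξ (rootsL y α) (EIv (rootsL y α) x v)| ≤ K * H562.ww ξ y / ‖x‖) := by
  obtain ⟨N₁, hN1, hA⟩ := hA
  obtain ⟨K, N₂, hK1, hN2, hK⟩ := exists_aL
  refine ⟨16 * K, max N₁ N₂, by linarith, hN1.trans (le_max_left _ _),
    fun y α hy ξ hξ x v hx hv => ?_⟩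
  have hy1 : BaseOk N₁ y α := ⟨fun k => (le_max_left _ _).trans (hy.1 k), hy.2⟩
  have hy2 : BaseOk N₂ y α := ⟨fun k => (le_max_right _ _).trans (hy.1 k), hy.2⟩
  obtain ⟨c1, -, c6⟩ := hK y α hy2 ξ hξ
  have key := abs_EIv_le (a := (aL ξ y α 0, aL ξ y α 1)) (hA y α hy1 ξ hξ) hv hx
  have ha1 : ‖aL ξ y α 0‖ ≤ ‖aL ξ y α‖ := norm_le_pi_norm (aL ξ y α) 0
  have ha2 : ‖aL ξ y α 1‖ ≤ ‖aL ξ y α‖ := norm_le_pi_norm (aL ξ y α) 1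
  constructor
  · refine key.trans (div_le_div_of_nonneg_right ?_ (norm_nonneg _))
    show 8 * (‖aL ξ y α 0‖ + ‖aL ξ y α 1‖) ≤ _
    nlinarith
  · intro hb
    have := c6 hb
    refine key.trans (div_le_div_of_nonneg_right ?_ (norm_nonneg _))
    show 8 * (‖aL ξ y α 0‖ + ‖aL ξ y α 1‖) ≤ _
    nlinarith

end Vale.Agent.P273.H26
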