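import Mathlib

/-!
An abstract maximum principle for `|Re H|` on the sphere, and the smoothness of the inverse of an
injective family of linear maps.
-/

noncomputable section
namespace Vale.Agent.P273.H26

open Set Filter Topology

/-- If `|Re h|` has a local maximum at `x` that is attained, `Re h` is constant near `x`. -/
theorem const_of_absRe_max {h : ℂ → ℂ} {x : ℂ} (hh : AnalyticAt ℂ h x)
    (hm : ∀ᶠ y in 𝓝 x, |(h y).re| ≤ |(h x).re|) : ∀ᶠ y in 𝓝 x, h y = h x := by
  rcases le_total 0 (h x).re with h0 | h0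
  · -- exp h
    have hd : ∀ᶠ y in 𝓝 x, DifferentiableAt ℂ (fun y => Complex.exp (h y)) y := by
      filter_upwards [hh.eventually_analyticAt] with y hy
      exact hy.differentiableAt.cexp
    have hmax : IsLocalMax (norm ∘ fun y => Complex.exp (h y)) x := by
      filter_upwards [hm] with y hy
      simp only [Function.comp_apply, Complex.norm_exp]
      apply Real.exp_le_exp.2
      rw [abs_of_nonneg h0] at hy
      exact (le_abs_self _).trans hy
    have h1 := Complex.eventually_eq_of_isLocalMax_norm hd hmax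
    have h2 : ∀ᶠ y in 𝓝 x, ‖h y - h x‖ < 1 := by
      have := hh.continuousAt.sub (continuousAt_const (y := h x))
      have h3 : Tendsto (fun y => ‖h y - h x‖) (𝓝 x) (𝓝 ‖h x - h x‖) := this.norm
      rw [sub_self, norm_zero] at h3
      exact h3.eventually (gt_mem_nhds one_pos)
    filter_upwards [h1, h2] with y hy hy2
    have h4 : Complex.exp (h y - h x) = 1 := by
      rw [Complex.exp_sub, hy, div_self (Complex.exp_ne_zero _)]
    obtain ⟨n, hn⟩ := Complex.exp_eq_one_iff.1 h4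
    have h5 : n = 0 := by
      by_contra hne
      have h6 : (1 : ℝ) ≤ |(n : ℝ)| := by
        have : (1 : ℤ) ≤ |n| := Int.one_le_abs hne
        exact_mod_cast this
      have h7 : ‖h y - h x‖ = |(n : ℝ)| * (2 * Real.pi) := by
        rw [hn]
        simp [abs_of_pos Real.pi_pos]
      rw [h7] at hy2
      nlinarith [Real.pi_gt_three]
    rw [h5] at hn
    simp only [Int.cast_zero, zero_mul] at hn
    exact sub_eq_zero.1 hn
  · -- exp (-h)
    have hd : ∀ᶠ y in 𝓝 x, DifferentiableAt ℂ (fun y => Complex.exp (-h y)) y := by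
      filter_upwards [hh.eventually_analyticAt] with y hy
      exact hy.differentiableAt.neg.cexp
    have hmax : IsLocalMax (norm ∘ fun y => Complex.exp (-h y)) x := by
      filter_upwards [hm] with y hy
      simp only [Function.comp_apply, Complex.norm_exp, Complex.neg_re]
      apply Real.exp_le_exp.2
      rw [abs_of_nonpos h0] at hy
      exact (neg_le_abs _).trans hy
    have h1 := Complex.eventually_eq_of_isLocalMax_norm hd hmax
    have h2 : ∀ᶠ y in 𝓝 x, ‖h y - h x‖ < 1 := by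
      have := hh.continuousAt.sub (continuousAt_const (y := h x))
      have h3 : Tendsto (fun y => ‖h y - h x‖) (𝓝 x) (𝓝 ‖h x - h x‖) := this.norm
      rw [sub_self, norm_zero] at h3
      exact h3.eventually (gt_mem_nhds one_pos)
    filter_upwards [h1, h2] with y hy hy2
    have h4 : Complex.exp (h y - h x) = 1 := by
      have : h y - h x = -h x - -h y := by ring
      rw [this, Complex.exp_sub, ← hy, div_self (Complex.exp_ne_zero _)]
    obtain ⟨n, hn⟩ := Complex.exp_eq_one_iff.1 h4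
    have h5 : n = 0 := by
      by_contra hne
      have h6 : (1 : ℝ) ≤ |(n : ℝ)| := by
        have : (1 : ℤ) ≤ |n| := Int.one_le_abs hne
        exact_mod_cast this
      have h7 : ‖h y - h x‖ = |(n : ℝ)| * (2 * Real.pi) := by
        rw [hn]
        simp [abs_of_pos Real.pi_pos]
      rw [h7] at hy2
      nlinarith [Real.pi_gt_three]
    rw [h5] at hn
    simp only [Int.cast_zero, zero_mul] at hn
    exact sub_eq_zero.1 hn

/-- **Maximum principle.** `U ≥ 0` is continuous on the sphere, locally `|Re h|` with `h`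
holomorphic where it is positive, and has a zero: then `U = 0`. -/
theorem absRe_zero {U : ℂ → ℝ} (hU : Continuous U) (h0 : ∀ x, 0 ≤ U x)
    (hloc : ∀ x, 0 < U x → ∃ h : ℂ → ℂ, AnalyticAt ℂ h x ∧ ∀ᶠ y in 𝓝 x, U y = |(h y).re|)
    {L : ℝ} (hL : Tendsto U (cocompact ℂ) (𝓝 L))
    (hinf : 0 < L → ∃ h : ℂ → ℂ, AnalyticAt ℂ h 0 ∧ ∀ᶠ w in 𝓝[≠] (0 : ℂ), U w⁻¹ = |(h w).re|)
    {x₀ : ℂ} (hx₀ : U x₀ = 0) : ∀ x, U x = 0 := by
  by_contra hcon
  push Not at hcon
  obtain ⟨x₁, hx₁⟩ := hcon
  have hx₁' : 0 < U x₁ := lt_of_le_of_ne (h0 _) (Ne.symm hx₁)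
  have hL0 : 0 ≤ L := ge_of_tendsto hL (Eventually.of_forall h0)
  -- points where the maximum is attained
  have key : ∀ M, 0 < M → (∀ x, U x ≤ M) → ∀ x, U x ≠ M := by
    intro M hM hle x hx
    have hcl : IsClosed {x | U x = M} := isClosed_eq hU continuous_const
    have hop : IsOpen {x | U x = M} := by
      rw [isOpen_iff_mem_nhds]
      intro y hy
      have hy' : U y = M := hy
      obtain ⟨h, hh, he⟩ := hloc y (by rw [hy']; exact hM)
      have hey : U y = |(h y).re| := he.self_of_nhds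
      have h1 : ∀ᶠ z in 𝓝 y, |(h z).re| ≤ |(h y).re| := by
        filter_upwards [he] with z hz
        rw [← hz, ← hey, hy']
        exact hle z
      filter_upwards [const_of_absRe_max hh h1, he] with z hz1 hz2
      show U z = M
      rw [hz2, hz1, ← hey, hy']
    have := IsClopen.eq_univ ⟨hcl, hop⟩ ⟨x, hx⟩
    have h2 : x₀ ∈ {x | U x = M} := by rw [this]; trivial
    have h3 : U x₀ = M := h2
    rw [hx₀] at h3
    exact hM.ne h3
  -- the maximum on the sphere
  by_cases hbig : ∃ x, L < U x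
  · obtain ⟨x₂, hx₂⟩ := hbig
    have hev : ∀ᶠ x in cocompact ℂ, U x < U x₂ := hL.eventually (gt_mem_nhds hx₂)
    obtain ⟨K, hK, hKs⟩ := (hasBasis_cocompact.eventually_iff).1 hev
    have hne : (insert x₂ K).Nonempty := ⟨x₂, mem_insert _ _⟩
    obtain ⟨z, hz, hzm⟩ := (hK.insert x₂).exists_isMaxOn hne hU.continuousOn
    have hz2 : U x₂ ≤ U z := hzm (mem_insert _ _)
    refine key (U z) (lt_of_lt_of_le (lt_of_le_of_lt hL0 hx₂) hz2) (fun x => ?_) z rfl
    by_cases hx : x ∈ K
    · exact hzm (mem_insert_of_mem _ hx)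
    · exact (le_of_lt (hKs hx)).trans hz2
  · push Not at hbig
    have hLpos : 0 < L := lt_of_lt_of_le hx₁' (hbig x₁)
    obtain ⟨h, hh, he⟩ := hinf hLpos
    have hinv : Tendsto (fun w : ℂ => w⁻¹) (𝓝[≠] 0) (cocompact ℂ) := by
      rw [← Metric.cobounded_eq_cocompact]
      exact tendsto_inv₀_nhdsNE_zero
    have h1 : Tendsto (fun w => |(h w).re|) (𝓝[≠] (0 : ℂ)) (𝓝 L) :=
      (hL.comp hinv).congr' he
    have h2 : Tendsto (fun w => |(h w).re|) (𝓝[≠] (0 : ℂ)) (𝓝 |(h 0).re|) :=
      ((Complex.continuous_re.continuousAt.comp hh.continuousAt).abs).tendsto.mono_left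
        nhdsWithin_le_nhds
    have h3 : |(h 0).re| = L := tendsto_nhds_unique h2 h1
    have h4 : ∀ᶠ w in 𝓝 (0 : ℂ), |(h w).re| ≤ |(h 0).re| := by
      rw [eventually_nhdsWithin_iff] at he
      filter_upwards [he] with w hw
      by_cases hw0 : w = 0
      · rw [hw0]
      · rw [← hw hw0, h3]
        exact hbig _
    have h5 : ∀ᶠ w in 𝓝[≠] (0 : ℂ), U w⁻¹ = L := by
      filter_upwards [he, (const_of_absRe_max hh h4).filter_mono nhdsWithin_le_nhds] with w h6 h7
      rw [h6, h7, h3]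
    obtain ⟨w, hw⟩ := h5.exists
    exact key L hLpos hbig w⁻¹ hw

/-- **Maximum principle, slit form.** `V` (`= |Re H|`) is given on a dense set `S`; away from a
finite set of points `R` (the roots) it is locally the restriction of `|Re h|` with `h`
holomorphic, it tends to `0` at the points of `R`, and it is `|Re h|` in the chart `1/x` at infinity:
then `V = 0` on `S`. -/
theorem dense_zero {S R : Set ℂ} (hS : Dense S) (hR : R.Nonempty) {V : ℂ → ℝ}
    (hloc : ∀ x, x ∉ R → ∃ h : ℂ → ℂ, AnalyticAt ℂ h x ∧ ∀ᶠ y in 𝓝 x, y ∈ S → V y = |(h y).re|)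
    (hroot : ∀ x ∈ R, Tendsto V (𝓝[S] x) (𝓝 0))
    (hinf : ∃ h : ℂ → ℂ, AnalyticAt ℂ h 0 ∧
      ∀ᶠ w in 𝓝[≠] (0 : ℂ), w⁻¹ ∈ S → V w⁻¹ = |(h w).re|) :
    ∀ x ∈ S, x ∉ R → V x = 0 := by
  classical
  have hne : ∀ x, (𝓝[S] x).NeBot := fun x => mem_closure_iff_nhdsWithin_neBot.1 (hS x)
  -- the limit at every point
  have hlim : ∀ x, ∃ l, Tendsto V (𝓝[S] x) (𝓝 l) ∧ (x ∈ R → l = 0) := by
    intro x
    by_cases hx : x ∈ R
    · exact ⟨0, hroot x hx, fun _ => rfl⟩
    · obtain ⟨h, hh, he⟩ := hloc x hx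
      refine ⟨|(h x).re|, ?_, fun h => absurd h hx⟩
      have h1 : Tendsto (fun y => |(h y).re|) (𝓝[S] x) (𝓝 |(h x).re|) :=
        ((Complex.continuous_re.continuousAt.comp hh.continuousAt).abs).tendsto.mono_left
          nhdsWithin_le_nhds
      refine h1.congr' ?_
      rw [EventuallyEq, eventually_nhdsWithin_iff]
      filter_upwards [he] with y hy hyS
      exact (hy hyS).symm
  choose U hU hUR using hlim
  -- near a good point `U` is `|Re h|`
  have hUloc : ∀ x, x ∉ R → ∃ h : ℂ → ℂ, AnalyticAt ℂ h x ∧ ∀ᶠ y in 𝓝 x, U y = |(h y).re| := by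
    intro x hx
    obtain ⟨h, hh, he⟩ := hloc x hx
    refine ⟨h, hh, ?_⟩
    filter_upwards [he.eventually_nhds, hh.eventually_analyticAt] with y hy hhy
    have h1 : Tendsto (fun z => |(h z).re|) (𝓝[S] y) (𝓝 |(h y).re|) :=
      ((Complex.continuous_re.continuousAt.comp hhy.continuousAt).abs).tendsto.mono_left
        nhdsWithin_le_nhds
    have h2 : V =ᶠ[𝓝[S] y] fun z => |(h z).re| := by
      rw [EventuallyEq, eventually_nhdsWithin_iff]
      exact hy
    have := hne y
    exact tendsto_nhds_unique (hU y) (h1.congr' h2.symm)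
  have hnn : ∀ x, 0 ≤ U x := by
    intro x
    by_cases hx : x ∈ R
    · rw [hUR x hx]
    · obtain ⟨h, -, he⟩ := hUloc x hx
      rw [he.self_of_nhds]
      exact abs_nonneg _
  have hcont : Continuous U := by
    rw [continuous_iff_continuousAt]
    intro x
    by_cases hx : x ∈ R
    · have h0 : U x = 0 := hUR x hx
      rw [ContinuousAt, h0]
      have h1 := hroot x hx
      rw [Metric.tendsto_nhds] at h1 ⊢
      intro ε hε
      have h2 := h1 (ε / 2) (half_pos hε)
      rw [eventually_nhdsWithin_iff] at h2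
      filter_upwards [h2.eventually_nhds] with y hy
      have := hne y
      have h3 : ∀ᶠ z in 𝓝[S] y, V z ∈ Metric.closedBall (0 : ℝ) (ε / 2) := by
        rw [eventually_nhdsWithin_iff]
        filter_upwards [hy] with z hz hzS
        exact (hz hzS).le
      have h4 := (Metric.isClosed_closedBall).mem_of_tendsto (hU y) h3
      rw [Metric.mem_closedBall] at h4
      linarith
    · obtain ⟨h, hh, he⟩ := hUloc x hx
      have h1 : ContinuousAt (fun y => |(h y).re|) x :=
        (Complex.continuous_re.continuousAt.comp hh.continuousAt).abs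
      exact h1.congr (he.mono fun y hy => hy.symm)
  -- infinity
  obtain ⟨h, hh, he⟩ := hinf
  have hne0 : ∀ w : ℂ, w ≠ 0 → ContinuousAt (fun w : ℂ => w⁻¹) w := fun w hw =>
    continuousAt_inv₀ hw
  have heU : ∀ᶠ w in 𝓝[≠] (0 : ℂ), U w⁻¹ = |(h w).re| := by
    rw [eventually_nhdsWithin_iff] at he ⊢
    filter_upwards [he.eventually_nhds, hh.eventually_analyticAt] with w hw hhw hw0
    have hw0' : w ≠ 0 := hw0
    have := hne w⁻¹
    have h1 : Tendsto (fun z : ℂ => z⁻¹) (𝓝[S] w⁻¹) (𝓝 w) := by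
      have : ContinuousAt (fun z : ℂ => z⁻¹) w⁻¹ := continuousAt_inv₀ (inv_ne_zero hw0')
      have h2 : Tendsto (fun z : ℂ => z⁻¹) (𝓝 w⁻¹) (𝓝 (w⁻¹)⁻¹) := this
      rw [inv_inv] at h2
      exact h2.mono_left nhdsWithin_le_nhds
    have h3 : ∀ᶠ z in 𝓝[S] w⁻¹, V z = |(h z⁻¹).re| := by
      have h4 := h1.eventually hw
      have h5 : ∀ᶠ z in 𝓝[S] w⁻¹, z ≠ 0 := by
        have : ∀ᶠ z in 𝓝 w⁻¹, z ≠ 0 := isOpen_ne.mem_nhds (inv_ne_zero hw0')
        exact this.filter_mono nhdsWithin_le_nhds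
      filter_upwards [h4, h5, self_mem_nhdsWithin] with z hz hz0 hzS
      have := hz (inv_ne_zero hz0) (by rwa [inv_inv])
      rwa [inv_inv] at this
    have h6 : Tendsto (fun z : ℂ => |(h z⁻¹).re|) (𝓝[S] w⁻¹) (𝓝 |(h w).re|) := by
      have h7 : ContinuousAt (fun z => |(h z).re|) w :=
        (Complex.continuous_re.continuousAt.comp hhw.continuousAt).abs
      exact h7.tendsto.comp h1
    exact tendsto_nhds_unique (hU w⁻¹) (h6.congr' (h3.mono fun z hz => hz.symm))
  have hL : Tendsto U (cocompact ℂ) (𝓝 |(h 0).re|) := by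
    have h1 : Tendsto (fun z : ℂ => z⁻¹) (cocompact ℂ) (𝓝[≠] 0) := by
      rw [← Metric.cobounded_eq_cocompact]
      exact tendsto_inv₀_cobounded'
    have h2 : Tendsto (fun w => |(h w).re|) (𝓝[≠] (0 : ℂ)) (𝓝 |(h 0).re|) :=
      ((Complex.continuous_re.continuousAt.comp hh.continuousAt).abs).tendsto.mono_left
        nhdsWithin_le_nhds
    refine (h2.comp h1).congr' ?_
    filter_upwards [h1.eventually heU] with z hz
    rw [Function.comp_apply, ← hz, inv_inv]
  obtain ⟨x₀, hx₀⟩ := hR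
  have hall := absRe_zero hcont hnn
    (fun x hx => hUloc x (fun hxR => hx.ne' (hUR x hxR))) hL (fun _ => ⟨h, hh, heU⟩) (hUR x₀ hx₀)
  intro x hxS hxR
  obtain ⟨g, hg, hge⟩ := hloc x hxR
  have h1 := hge.self_of_nhds hxS
  obtain ⟨g', hg', hge'⟩ := hUloc x hxR
  -- the value at `x` is the limit
  have h2 : Tendsto (fun y => |(g y).re|) (𝓝[S] x) (𝓝 |(g x).re|) :=
    ((Complex.continuous_re.continuousAt.comp hg.continuousAt).abs).tendsto.mono_left
      nhdsWithin_le_nhds
  have h3 : V =ᶠ[𝓝[S] x] fun z => |(g z).re| := by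
    rw [EventuallyEq, eventually_nhdsWithin_iff]
    exact hge
  have := hne x
  have h4 := tendsto_nhds_unique (hU x) (h2.congr' h3.symm)
  rw [h1, ← h4, hall x]

/-- If `Re H = 0` on an open set on which `H' = (a₀ + a₁ x) / s(x)`, then `a₀ = a₁ = 0`. -/
theorem coeff_zero {S : Set ℂ} (hS : IsOpen S) (hne : S.Nonempty) {H s : ℂ → ℂ} {a₀ a₁ : ℂ}
    (hs : ∀ x ∈ S, s x ≠ 0) (hd : ∀ x ∈ S, HasDerivAt H ((a₀ + a₁ * x) / s x) x)
    (h0 : ∀ x ∈ S, (H x).re = 0) : a₀ = 0 ∧ a₁ = 0 := by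
  -- the derivative vanishes
  have key : ∀ x ∈ S, a₀ + a₁ * x = 0 := by
    intro x hx
    have h1 := hd x hx
    have h2 : HasDerivAt (fun t : ℝ => H (x + t)) ((a₀ + a₁ * x) / s x) 0 := by
      have h3 : HasDerivAt (fun t : ℝ => x + (t : ℂ)) 1 0 := by
        simpa using (Complex.ofRealCLM.hasDerivAt (x := (0 : ℝ))).const_add x
      have h4 : HasDerivAt H ((a₀ + a₁ * x) / s x) (x + ((0 : ℝ) : ℂ)) := by simpa using h1
      have h5 := h4.comp (0 : ℝ) h3
      rw [mul_one] at h5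
      exact h5
    have h2' : HasDerivAt (fun t : ℝ => H (x + t * Complex.I))
        ((a₀ + a₁ * x) / s x * Complex.I) 0 := by
      have h3 : HasDerivAt (fun t : ℝ => x + (t : ℂ) * Complex.I) Complex.I 0 := by
        simpa using ((Complex.ofRealCLM.hasDerivAt (x := (0 : ℝ))).mul_const Complex.I).const_add x
      have h4 : HasDerivAt H ((a₀ + a₁ * x) / s x) (x + ((0 : ℝ) : ℂ) * Complex.I) := by
        simpa using h1
      exact h4.comp (0 : ℝ) h3
    have hev : ∀ᶠ t : ℝ in 𝓝 0, (H (x + t)).re = 0 := by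
      have : ContinuousAt (fun t : ℝ => x + (t : ℂ)) 0 := by fun_prop
      have h5 : S ∈ 𝓝 (x + ((0 : ℝ) : ℂ)) := by simpa using hS.mem_nhds hx
      filter_upwards [this.preimage_mem_nhds h5] with t ht
      exact h0 _ ht
    have hev' : ∀ᶠ t : ℝ in 𝓝 0, (H (x + t * Complex.I)).re = 0 := by
      have : ContinuousAt (fun t : ℝ => x + (t : ℂ) * Complex.I) 0 := by fun_prop
      have h5 : S ∈ 𝓝 (x + ((0 : ℝ) : ℂ) * Complex.I) := by simpa using hS.mem_nhds hx
      filter_upwards [this.preimage_mem_nhds h5] with t ht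
      exact h0 _ ht
    have h6 : ((a₀ + a₁ * x) / s x).re = 0 := by
      have h7 : HasDerivAt (fun t : ℝ => (H (x + t)).re) ((a₀ + a₁ * x) / s x).re 0 :=
        (Complex.reCLM.hasFDerivAt.comp_hasDerivAt (0 : ℝ) h2)
      have h8 : HasDerivAt (fun _ : ℝ => (0 : ℝ)) ((a₀ + a₁ * x) / s x).re 0 :=
        h7.congr_of_eventuallyEq (hev.mono fun t ht => ht.symm)
      exact h8.unique (hasDerivAt_const 0 0)
    have h6' : ((a₀ + a₁ * x) / s x * Complex.I).re = 0 := by
      have h7 : HasDerivAt (fun t : ℝ => (H (x + t * Complex.I)).re)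
          ((a₀ + a₁ * x) / s x * Complex.I).re 0 :=
        (Complex.reCLM.hasFDerivAt.comp_hasDerivAt (0 : ℝ) h2')
      have h8 : HasDerivAt (fun _ : ℝ => (0 : ℝ)) ((a₀ + a₁ * x) / s x * Complex.I).re 0 :=
        h7.congr_of_eventuallyEq (hev'.mono fun t ht => ht.symm)
      exact h8.unique (hasDerivAt_const 0 0)
    have h9 : (a₀ + a₁ * x) / s x = 0 := by
      apply Complex.ext
      · exact h6
      · simpa using h6'
    rcases div_eq_zero_iff.1 h9 with h10 | h10
    · exact h10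
    · exact absurd h10 (hs x hx)
  obtain ⟨x, hx⟩ := hne
  obtain ⟨ε, hε, hb⟩ := Metric.isOpen_iff.1 hS x hx
  have hy : x + ((ε / 2 : ℝ) : ℂ) ∈ S := by
    apply hb
    rw [Metric.mem_ball, dist_eq_norm]
    simp only [add_sub_cancel_left, Complex.norm_real, Real.norm_eq_abs]
    rw [abs_of_pos (half_pos hε)]
    exact half_lt_self hε
  have h1 := key x hx
  have h2 := key _ hy
  have h3 : a₁ * ((ε / 2 : ℝ) : ℂ) = 0 := by linear_combination h2 - h1
  have h4 : a₁ = 0 := by
    rcases mul_eq_zero.1 h3 with h | h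
    · exact h
    · exact absurd (Complex.ofReal_eq_zero.1 h) (half_pos hε).ne'
  rw [h4] at h1
  exact ⟨by simpa using h1, h4⟩

/-- **Smooth inverse** of an injective family of linear maps between spaces of the same finite
dimension. -/
theorem smooth_inverse {𝕜 : Type*} [RCLike 𝕜] {E V W : Type*} [NormedAddCommGroup E]
    [NormedSpace 𝕜 E] [NormedAddCommGroup V] [NormedSpace 𝕜 V] [FiniteDimensional 𝕜 V]
    [NormedAddCommGroup W] [NormedSpace 𝕜 W] [FiniteDimensional 𝕜 W]
    (hdim : Module.finrank 𝕜 V = Module.finrank 𝕜 W) {n : WithTop ℕ∞} {B : Set E}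
    {T : E → V →L[𝕜] W} (hT : ContDiffOn 𝕜 n T B) (hinj : ∀ b ∈ B, Function.Injective (T b)) :
    ContDiffOn 𝕜 n (fun b => (T b).inverse) B ∧ ∀ b ∈ B, (∀ v, (T b).inverse (T b v) = v) ∧
      ∀ w, T b ((T b).inverse w) = w := by
  have : CompleteSpace V := FiniteDimensional.complete 𝕜 V
  have hex : ∀ b ∈ B, ∃ e : V ≃L[𝕜] W, (e : V →L[𝕜] W) = T b := by
    intro b hb
    let l : V ≃ₗ[𝕜] W := LinearEquiv.ofInjectiveOfFinrankEq (T b : V →ₗ[𝕜] W) (hinj b hb) hdim
    refine ⟨l.toContinuousLinearEquiv, ?_⟩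
    ext v
    rfl
  refine ⟨fun b hb => ?_, fun b hb => ?_⟩
  · obtain ⟨e, he⟩ := hex b hb
    have h1 : ContDiffAt 𝕜 n ContinuousLinearMap.inverse (T b) := by
      rw [← he]
      exact contDiffAt_map_inverse e
    exact h1.comp_contDiffWithinAt b (hT b hb)
  · obtain ⟨e, he⟩ := hex b hb
    rw [← he, ContinuousLinearMap.inverse_equiv]
    exact ⟨fun v => e.symm_apply_apply v, fun w => e.apply_symm_apply w⟩

end Vale.Agent.P273.H26
end
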