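import Vale.Agent.P273.H595.Nat

/-!
The start of a path moved along the path, and the combinatorial conditions near a root.
-/

open Complex Set Filter Topology MeasureTheory
open scoped ContDiff

namespace Vale.Agent.P273.H26

open Vale.Agent.P273.H857 Vale.Agent.P273.H595

noncomputable section

/-- the height seen from the point with parameter `s` -/
def shg (g : ℝ → ℝ) (s : ℝ) : ℝ → ℝ := fun t => g (s + t) - g s

theorem deriv_shg (g : ℝ → ℝ) (s t : ℝ) : deriv (shg g s) t = deriv g (s + t) := by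
  unfold shg
  rw [deriv_sub_const, deriv_comp_const_add]

theorem isPath_shg {g : ℝ → ℝ} (hg : IsPath g) (s : ℝ) : IsPath (shg g s) := by
  obtain ⟨K, hK⟩ := hg.bdd
  refine ⟨(hg.smooth.comp (contDiff_const.add contDiff_id)).sub contDiff_const, by simp [shg],
    K, fun t => ?_⟩
  rw [deriv_shg]
  exact hK _

theorem gam_shg (x : ℂ) (g : ℝ → ℝ) (s t : ℝ) : gam (gam x g s) (shg g s) t = gam x g (s + t) := by
  simp only [gam, shg]
  push_cast
  ring

/-- the start moved along an admissible path -/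
theorem adm_shg {B : Finset (Fin 6)} {b : C6} {x : ℂ} {g : ℝ → ℝ} (h : Adm B b x g) {s : ℝ}
    (hs : 0 < s) : Adm B b (gam x g s) (shg g s) := by
  refine ⟨isPath_shg h.1 s, fun l _ hr => ?_⟩
  rw [sub_re, gam_re] at hr
  have h1 : s ≤ (b l - x).re := by rw [sub_re]; linarith
  have h2 : b l ≠ x := by
    rintro e
    rw [e, sub_self, zero_re] at h1
    linarith
  have h3 := h.2 l h2 (by linarith)
  have e1 : s + (b l - gam x g s).re = (b l - x).re := by
    rw [sub_re, sub_re, gam_re]; ring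
  have e2 : (b l - gam x g s).im = (b l - x).im - g s := by
    rw [sub_im, sub_im, gam_im]; ring
  simp only [shg]
  rw [e1, e2]
  exact ⟨fun hB => by linarith [h3.1 hB], fun hB => by linarith [h3.2 hB]⟩

theorem igd_shg (k : ℕ) (B : Finset (Fin 6)) (b : C6) (x : ℂ) (g : ℝ → ℝ) (s t : ℝ) :
    igd k B b (gam x g s) (shg g s) t = igd k B b x g (s + t) := by
  simp only [igd, gam_shg, deriv_shg]

theorem PG_shg (k : ℕ) (B : Finset (Fin 6)) (b : C6) (x : ℂ) (g : ℝ → ℝ) (s : ℝ) :
    PG k B b (gam x g s) (shg g s) = -∫ t in Ioi s, igd k B b x g t := by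
  unfold PG
  simp only [igd_shg]
  have h := (measurePreserving_add_left (volume : Measure ℝ) s).setIntegral_preimage_emb
    (measurableEmbedding_addLeft s) (igd k B b x g) (Ioi s)
  rw [← h]
  congr 2
  ext t
  simp

/-- **the primitive along an admissible path is continuous at the start** -/
theorem tendsto_P_gam (hI : StmINVn) {k : ℕ} (hk : k ≤ 1) {B : Finset (Fin 6)} {b : C6}
    {x : ℂ} (hb : SR b x) {g : ℝ → ℝ} (h : Adm B b x g)
    (hs : ∀ᶠ s : ℝ in 𝓝[>] 0, SR b (gam x g s)) :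
    Tendsto (fun n : ℕ => P k B b (gam x g (1 / ((n : ℝ) + 1)))) atTop (𝓝 (P k B b x)) := by
  have hlim : Tendsto (fun n : ℕ => 1 / ((n : ℝ) + 1)) atTop (𝓝[>] 0) :=
    tendsto_nhdsWithin_iff.2 ⟨tendsto_one_div_add_atTop_nhds_zero_nat,
      Eventually.of_forall fun n => by show (0 : ℝ) < _; positivity⟩
  have e1 : (fun n : ℕ => P k B b (gam x g (1 / ((n : ℝ) + 1)))) =ᶠ[atTop] fun n : ℕ =>
      -∫ t in Ioi (1 / ((n : ℝ) + 1)), igd k B b x g t := by
    filter_upwards [hlim.eventually hs] with n hn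
    have hs : (0 : ℝ) < 1 / ((n : ℝ) + 1) := by positivity
    rw [P_eq hI hk hn (adm_shg h hs), PG_shg]
  refine Tendsto.congr' e1.symm ?_
  rw [P_eq hI hk hb h]
  have hint := (hI k B b x hk hb).1 g h
  have hU : (⋃ n : ℕ, Ioi (1 / ((n : ℝ) + 1))) = Ioi (0 : ℝ) := by
    ext t
    simp only [mem_iUnion, mem_Ioi]
    constructor
    · rintro ⟨n, hn⟩
      exact lt_trans (by positivity) hn
    · intro ht
      exact exists_nat_one_div_lt ht
  have hm : Monotone fun n : ℕ => Ioi (1 / ((n : ℝ) + 1)) := by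
    intro m n hmn
    refine Ioi_subset_Ioi ?_
    have : (m : ℝ) ≤ n := by exact_mod_cast hmn
    exact one_div_le_one_div_of_le (by positivity) (by linarith)
  have := tendsto_setIntegral_of_monotone (μ := (volume : Measure ℝ)) (f := igd k B b x g)
    (fun n : ℕ => measurableSet_Ioi) hm (by rw [hU]; exact hint)
  rw [hU] at this
  exact this.neg

/-- the conditions at a root hold near the root -/
theorem ok_near {B : Finset (Fin 6)} {b₀ : C6} {j : Fin 6} (hO : OK B b₀ (b₀ j))
    (hb : ∀ l, l ≠ j → b₀ l ≠ b₀ j) (hj : j ∉ B) :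
    ∀ᶠ p : C6 × ℂ in 𝓝 (b₀, 0), (∀ l, l ≠ j → p.1 l ≠ p.1 j) ∧
      (∀ l, l ≠ j → p.1 l ≠ p.1 j + p.2) ∧
      (∀ l, l ≠ j → p.1 j + p.2 - p.1 l ∈ Sb B l) ∧
      OK B p.1 (p.1 j) ∧ (p.2 ∈ Sl → OK B p.1 (p.1 j + p.2)) ∧
        (p.2 ∈ Su → OK (insert j B) p.1 (p.1 j + p.2)) := by
  have c : ∀ l, Continuous fun p : C6 × ℂ => p.1 l := fun l => by fun_prop
  have cw : Continuous fun p : C6 × ℂ => p.1 j + p.2 := by fun_prop
  have cr : ∀ l, Continuous fun p : C6 × ℂ => (p.1 l).re := fun l => continuous_re.comp (c l)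
  have ci : ∀ l, Continuous fun p : C6 × ℂ => (p.1 l).im := fun l => continuous_im.comp (c l)
  have cwr : Continuous fun p : C6 × ℂ => (p.1 j + p.2).re := continuous_re.comp cw
  have cwi : Continuous fun p : C6 × ℂ => (p.1 j + p.2).im := continuous_im.comp cw
  -- distinct
  have h1 : ∀ᶠ p : C6 × ℂ in 𝓝 (b₀, 0), ∀ l, l ≠ j → p.1 l ≠ p.1 j := by
    rw [eventually_all]; intro l
    rcases eq_or_ne l j with h | h
    · exact Eventually.of_forall fun p h' => absurd h h'
    · filter_upwards [(isOpen_ne_fun (c l) (c j)).mem_nhds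
        (show (b₀, (0 : ℂ)) ∈ _ from hb l h)] with p hp _ using hp
  have h2 : ∀ᶠ p : C6 × ℂ in 𝓝 (b₀, 0), ∀ l, l ≠ j → p.1 l ≠ p.1 j + p.2 := by
    rw [eventually_all]; intro l
    rcases eq_or_ne l j with h | h
    · exact Eventually.of_forall fun p h' => absurd h h'
    · filter_upwards [(isOpen_ne_fun (c l) cw).mem_nhds
        (show (b₀, (0 : ℂ)) ∈ _ by simpa using hb l h)] with p hp _ using hp
  -- pairs
  have h3 : ∀ᶠ p : C6 × ℂ in 𝓝 (b₀, 0), ∀ l m, l ∈ B → m ∉ B → (p.1 l).re = (p.1 m).re →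
      (p.1 j + p.2).re ≤ (p.1 l).re → (p.1 m).im < (p.1 l).im := by
    rw [eventually_all]; intro l
    rw [eventually_all]; intro m
    by_cases hl : l ∈ B
    swap
    · exact Eventually.of_forall fun p h' => absurd h' hl
    by_cases hm : m ∈ B
    · exact Eventually.of_forall fun p _ h' => absurd hm h'
    have hlj : l ≠ j := fun h => hj (h ▸ hl)
    have ho : IsOpen {p : C6 × ℂ | (p.1 l).re ≠ (p.1 m).re ∨ (p.1 l).re < (p.1 j + p.2).re ∨
        (p.1 m).im < (p.1 l).im} :=
      (isOpen_ne_fun (cr l) (cr m)).union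
        ((isOpen_lt (cr l) cwr).union (isOpen_lt (ci m) (ci l)))
    have hp : (b₀, (0 : ℂ)) ∈ {p : C6 × ℂ | (p.1 l).re ≠ (p.1 m).re ∨
        (p.1 l).re < (p.1 j + p.2).re ∨ (p.1 m).im < (p.1 l).im} := by
      show (b₀ l).re ≠ (b₀ m).re ∨ (b₀ l).re < (b₀ j + 0).re ∨ (b₀ m).im < (b₀ l).im
      rw [add_zero]
      by_contra hc
      push Not at hc
      obtain ⟨e1, e2, e3⟩ := hc
      rcases e2.lt_or_eq with e4 | e4
      · exact absurd (hO.1 l hl m hm e1 e4) (not_lt.2 e3)
      · have k1 := (hO.2 l (hb l hlj) e4.symm).1 hl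
        rcases eq_or_ne m j with h | h
        · rw [h] at e3; linarith
        · have k2 := (hO.2 m (hb m h) (e1 ▸ e4.symm)).2 hm
          linarith
    filter_upwards [ho.mem_nhds hp] with p hp _ _ e1 e2
    rcases hp with h | h | h
    · exact absurd e1 h
    · exact absurd e2 (not_le.2 h)
    · exact h
  -- the other roots on the line of the start
  have h4 : ∀ᶠ p : C6 × ℂ in 𝓝 (b₀, 0), ∀ l, l ≠ j → (p.1 l).re = (p.1 j + p.2).re →
      (l ∈ B → (p.1 j + p.2).im < (p.1 l).im) ∧ (l ∉ B → (p.1 l).im < (p.1 j + p.2).im) := by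
    rw [eventually_all]; intro l
    rcases eq_or_ne l j with h | h
    · exact Eventually.of_forall fun p h' => absurd h h'
    by_cases hl : l ∈ B
    · have ho : IsOpen {p : C6 × ℂ | (p.1 l).re ≠ (p.1 j + p.2).re ∨
          (p.1 j + p.2).im < (p.1 l).im} :=
        (isOpen_ne_fun (cr l) cwr).union (isOpen_lt cwi (ci l))
      have hp : (b₀, (0 : ℂ)) ∈ {p : C6 × ℂ | (p.1 l).re ≠ (p.1 j + p.2).re ∨
          (p.1 j + p.2).im < (p.1 l).im} := by
        show (b₀ l).re ≠ (b₀ j + 0).re ∨ (b₀ j + 0).im < (b₀ l).im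
        rw [add_zero]
        by_cases e : (b₀ l).re = (b₀ j).re
        · exact Or.inr ((hO.2 l (hb l h) e).1 hl)
        · exact Or.inl e
      filter_upwards [ho.mem_nhds hp] with p hp _ e1
      rcases hp with h5 | h5
      · exact absurd e1 h5
      · exact ⟨fun _ => h5, fun h6 => absurd hl h6⟩
    · have ho : IsOpen {p : C6 × ℂ | (p.1 l).re ≠ (p.1 j + p.2).re ∨
          (p.1 l).im < (p.1 j + p.2).im} :=
        (isOpen_ne_fun (cr l) cwr).union (isOpen_lt (ci l) cwi)
      have hp : (b₀, (0 : ℂ)) ∈ {p : C6 × ℂ | (p.1 l).re ≠ (p.1 j + p.2).re ∨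
          (p.1 l).im < (p.1 j + p.2).im} := by
        show (b₀ l).re ≠ (b₀ j + 0).re ∨ (b₀ l).im < (b₀ j + 0).im
        rw [add_zero]
        by_cases e : (b₀ l).re = (b₀ j).re
        · exact Or.inr ((hO.2 l (hb l h) e).2 hl)
        · exact Or.inl e
      filter_upwards [ho.mem_nhds hp] with p hp _ e1
      rcases hp with h5 | h5
      · exact absurd e1 h5
      · exact ⟨fun h6 => absurd h6 hl, fun _ => h5⟩
  -- the other roots on the line of the root
  have h5 : ∀ᶠ p : C6 × ℂ in 𝓝 (b₀, 0), ∀ l, l ≠ j → (p.1 l).re = (p.1 j).re →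
      (l ∈ B → (p.1 j).im < (p.1 l).im) ∧ (l ∉ B → (p.1 l).im < (p.1 j).im) := by
    rw [eventually_all]; intro l
    rcases eq_or_ne l j with h | h
    · exact Eventually.of_forall fun p h' => absurd h h'
    by_cases hl : l ∈ B
    · have ho : IsOpen {p : C6 × ℂ | (p.1 l).re ≠ (p.1 j).re ∨ (p.1 j).im < (p.1 l).im} :=
        (isOpen_ne_fun (cr l) (cr j)).union (isOpen_lt (ci j) (ci l))
      have hp : (b₀, (0 : ℂ)) ∈ {p : C6 × ℂ | (p.1 l).re ≠ (p.1 j).re ∨
          (p.1 j).im < (p.1 l).im} := by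
        by_cases e : (b₀ l).re = (b₀ j).re
        · exact Or.inr ((hO.2 l (hb l h) e).1 hl)
        · exact Or.inl e
      filter_upwards [ho.mem_nhds hp] with p hp _ e1
      rcases hp with h5 | h5
      · exact absurd e1 h5
      · exact ⟨fun _ => h5, fun h6 => absurd hl h6⟩
    · have ho : IsOpen {p : C6 × ℂ | (p.1 l).re ≠ (p.1 j).re ∨ (p.1 l).im < (p.1 j).im} :=
        (isOpen_ne_fun (cr l) (cr j)).union (isOpen_lt (ci l) (ci j))
      have hp : (b₀, (0 : ℂ)) ∈ {p : C6 × ℂ | (p.1 l).re ≠ (p.1 j).re ∨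
          (p.1 l).im < (p.1 j).im} := by
        by_cases e : (b₀ l).re = (b₀ j).re
        · exact Or.inr ((hO.2 l (hb l h) e).2 hl)
        · exact Or.inl e
      filter_upwards [ho.mem_nhds hp] with p hp _ e1
      rcases hp with h5 | h5
      · exact absurd e1 h5
      · exact ⟨fun h6 => absurd h6 hl, fun _ => h5⟩
  -- the pairs at the root itself
  have h6 : ∀ᶠ p : C6 × ℂ in 𝓝 (b₀, 0), ∀ l m, l ∈ B → m ∉ B → (p.1 l).re = (p.1 m).re →
      (p.1 j).re ≤ (p.1 l).re → (p.1 m).im < (p.1 l).im := by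
    rw [eventually_all]; intro l
    rw [eventually_all]; intro m
    by_cases hl : l ∈ B
    swap
    · exact Eventually.of_forall fun p h' => absurd h' hl
    by_cases hm : m ∈ B
    · exact Eventually.of_forall fun p _ h' => absurd hm h'
    have hlj : l ≠ j := fun h => hj (h ▸ hl)
    have ho : IsOpen {p : C6 × ℂ | (p.1 l).re ≠ (p.1 m).re ∨ (p.1 l).re < (p.1 j).re ∨
        (p.1 m).im < (p.1 l).im} :=
      (isOpen_ne_fun (cr l) (cr m)).union
        ((isOpen_lt (cr l) (cr j)).union (isOpen_lt (ci m) (ci l)))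
    have hp : (b₀, (0 : ℂ)) ∈ {p : C6 × ℂ | (p.1 l).re ≠ (p.1 m).re ∨
        (p.1 l).re < (p.1 j).re ∨ (p.1 m).im < (p.1 l).im} := by
      show (b₀ l).re ≠ (b₀ m).re ∨ (b₀ l).re < (b₀ j).re ∨ (b₀ m).im < (b₀ l).im
      by_contra hc
      push Not at hc
      obtain ⟨e1, e2, e3⟩ := hc
      rcases e2.lt_or_eq with e4 | e4
      · exact absurd (hO.1 l hl m hm e1 e4) (not_lt.2 e3)
      · have k1 := (hO.2 l (hb l hlj) e4.symm).1 hl
        rcases eq_or_ne m j with h | h
        · rw [h] at e3; linarith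
        · have k2 := (hO.2 m (hb m h) (e1 ▸ e4.symm)).2 hm
          linarith
    filter_upwards [ho.mem_nhds hp] with p hp _ _ e1 e2
    rcases hp with h | h | h
    · exact absurd e1 h
    · exact absurd e2 (not_le.2 h)
    · exact h
  filter_upwards [h1, h2, h3, h4, h5, h6] with p k1 k2 k3 k4 k5 k6
  refine ⟨k1, k2, fun l hl => ?_, ⟨?_, ?_⟩,
    fun hw => ⟨?_, ?_⟩, fun hw => ⟨?_, ?_⟩⟩
  · rw [mem_Sb_iff]
    intro h0
    rw [sub_re] at h0
    have := k4 l hl (by linarith)
    rw [sub_im]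
    exact ⟨fun h => by linarith [this.1 h], fun h => by linarith [this.2 h]⟩
  · exact fun l hl m hm e1 e2 => k6 l m hl hm e1 e2.le
  · intro l hl e
    have hlj : l ≠ j := fun h => hl (by rw [h])
    exact k5 l hlj e
  · exact fun l hl m hm e1 e2 => k3 l m hl hm e1 e2.le
  · intro l _ e
    rcases eq_or_ne l j with h | h
    · subst h
      rw [add_re] at e
      have hw0 : p.2.re = 0 := by linarith
      have hw1 : 0 < p.2.im := by
        rcases hw with h7 | h7
        · exact h7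
        · exact absurd hw0 h7
      exact ⟨fun h8 => absurd h8 hj, fun _ => by rw [add_im]; linarith⟩
    · exact k4 l h e
  · intro l hl m hm e1 e2
    rw [Finset.mem_insert] at hl
    rw [Finset.mem_insert, not_or] at hm
    rcases hl with h | h
    · subst h
      exact (k5 m hm.1 e1.symm).2 hm.2
    · exact k3 l m h hm.2 e1 e2.le
  · intro l _ e
    rcases eq_or_ne l j with h | h
    · subst h
      rw [add_re] at e
      have hw0 : p.2.re = 0 := by linarith
      have hw1 : p.2.im < 0 := by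
        rcases hw with h7 | h7
        · exact h7
        · exact absurd hw0 h7
      exact ⟨fun _ => by rw [add_im]; linarith,
        fun h8 => absurd (Finset.mem_insert_self _ _) h8⟩
    · have := k4 l h e
      refine ⟨fun h8 => this.1 ((Finset.mem_insert.1 h8).resolve_left h), fun h8 => this.2 ?_⟩
      exact fun h9 => h8 (Finset.mem_insert_of_mem h9)

end

end Vale.Agent.P273.H26
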